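import Mathlib

namespace Vale.Agent.Results.P322.PivotalMatching

open Finset

/-- the probability that the memoryless binary symmetric channel with crossover probability `ε`
turns the input `x` into the output `y` -/
noncomputable def chan (n : ℕ) (ε : ℝ) (x y : Fin n → ℤˣ) : ℝ :=
  ∏ i, if x i = y i then 1 - ε else ε

/-- the joint law of `(f(X), Y)`: the probability that `f(X) = u` and `Y = y` -/
noncomputable def joint (n : ℕ) (f : (Fin n → ℤˣ) → ℤˣ) (ε : ℝ) (u : ℤˣ)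
    (y : Fin n → ℤˣ) : ℝ :=
  ∑ x, if f x = u then chan n ε x y / 2 ^ n else 0

/-- the law of `f(X)` -/
noncomputable def lawF (n : ℕ) (f : (Fin n → ℤˣ) → ℤˣ) (ε : ℝ) (u : ℤˣ) : ℝ :=
  ∑ y, joint n f ε u y

/-- the law of `Y` -/
noncomputable def lawY (n : ℕ) (f : (Fin n → ℤˣ) → ℤˣ) (ε : ℝ) (y : Fin n → ℤˣ) : ℝ :=
  ∑ u, joint n f ε u y

/-- the mutual information `I(f(X);Y)` in bits -/
noncomputable def mutualInfo (n : ℕ) (f : (Fin n → ℤˣ) → ℤˣ) (ε : ℝ) : ℝ :=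
  ∑ u, ∑ y, joint n f ε u y *
    Real.logb 2 (joint n f ε u y / (lawF n f ε u * lawY n f ε y))

/-- the binary entropy function in bits -/
noncomputable def h2 (p : ℝ) : ℝ := -(p * Real.logb 2 p) - (1 - p) * Real.logb 2 (1 - p)

/-- the mean `E f(X)` -/
noncomputable def mean (n : ℕ) (f : (Fin n → ℤˣ) → ℤˣ) : ℝ :=
  (∑ x, ((f x : ℤ) : ℝ)) / 2 ^ n

/-- the conditional mean `E[f(X) | Y = y]` -/
noncomputable def condMean (n : ℕ) (f : (Fin n → ℤˣ) → ℤˣ) (ε : ℝ) (y : Fin n → ℤˣ) : ℝ :=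
  ∑ x, chan n ε x y * ((f x : ℤ) : ℝ)

/-- the probability that `f(X) = 1` -/
noncomputable def probOne (n : ℕ) (f : (Fin n → ℤˣ) → ℤˣ) : ℝ :=
  ((Finset.univ.filter (fun x => f x = 1)).card : ℝ) / 2 ^ n

/-- `x` with the sign of its coordinate `m x` changed -/
def flipAt (n : ℕ) (m : (Fin n → ℤˣ) → Fin n) (x : Fin n → ℤˣ) : Fin n → ℤˣ :=
  Function.update x (m x) (-x (m x))

/-- the probability that changing the sign of the coordinate `m x` of `x` changes `f x` -/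
noncomputable def pivFrac (n : ℕ) (f : (Fin n → ℤˣ) → ℤˣ) (m : (Fin n → ℤˣ) → Fin n) : ℝ :=
  ((Finset.univ.filter (fun x => f (flipAt n m x) ≠ f x)).card : ℝ) / 2 ^ n

lemma units_ne : (1 : ℤˣ) ≠ -1 := by decide

lemma sum_units (F : ℤˣ → ℝ) : ∑ u : ℤˣ, F u = F 1 + F (-1) := by
  rw [show (Finset.univ : Finset ℤˣ) = {1, -1} from rfl]
  exact Finset.sum_pair units_ne

lemma sq_units (u : ℤˣ) : ((u : ℤ) : ℝ) ^ 2 = 1 := by
  rcases Int.units_eq_one_or u with h | h <;> simp [h]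

lemma units_le (u : ℤˣ) : ((u : ℤ) : ℝ) ≤ 1 := by
  rcases Int.units_eq_one_or u with h | h <;> simp [h]

lemma le_units (u : ℤˣ) : -1 ≤ ((u : ℤ) : ℝ) := by
  rcases Int.units_eq_one_or u with h | h <;> simp [h]

lemma card_cube (n : ℕ) : ∑ _x : Fin n → ℤˣ, (1 : ℝ) = 2 ^ n := by
  simp

lemma chan_symm (n : ℕ) (ε : ℝ) (x y : Fin n → ℤˣ) : chan n ε x y = chan n ε y x := by
  unfold chan
  refine Finset.prod_congr rfl (fun i _ => ?_)
  simp only [eq_comm]

lemma chan_nonneg (n : ℕ) (ε : ℝ) (h0 : 0 ≤ ε) (h1 : ε ≤ 1) (x y : Fin n → ℤˣ) :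
    0 ≤ chan n ε x y := by
  unfold chan
  apply Finset.prod_nonneg
  intro i _
  split_ifs <;> linarith

lemma sum_chan_chi (n : ℕ) (ε : ℝ) (S : Finset (Fin n)) (y : Fin n → ℤˣ) :
    ∑ x : Fin n → ℤˣ, chan n ε x y * ∏ i ∈ S, ((x i : ℤ) : ℝ)
      = (1 - 2 * ε) ^ S.card * ∏ i ∈ S, ((y i : ℤ) : ℝ) := by
  have h1 : ∀ x : Fin n → ℤˣ, chan n ε x y * ∏ i ∈ S, ((x i : ℤ) : ℝ)
      = ∏ i, ((if x i = y i then 1 - ε else ε) * (if i ∈ S then ((x i : ℤ) : ℝ) else 1)) := by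
    intro x
    unfold chan
    rw [Finset.prod_mul_distrib, Finset.prod_ite_mem, Finset.univ_inter]
  simp_rw [h1]
  rw [← Fintype.prod_sum (fun (i : Fin n) (a : ℤˣ) =>
    (if a = y i then 1 - ε else ε) * (if i ∈ S then ((a : ℤ) : ℝ) else 1))]
  have h2 : ∀ i : Fin n,
      ∑ a : ℤˣ, (if a = y i then 1 - ε else ε) * (if i ∈ S then ((a : ℤ) : ℝ) else 1)
      = if i ∈ S then (1 - 2 * ε) * ((y i : ℤ) : ℝ) else 1 := by
    intro i
    rw [sum_units]
    rcases Int.units_eq_one_or (y i) with h | h <;> by_cases hi : i ∈ S <;>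
      simp [h, hi] <;> ring
  simp_rw [h2]
  rw [Finset.prod_ite_mem, Finset.univ_inter, Finset.prod_mul_distrib, Finset.prod_const]

lemma sum_chan (n : ℕ) (ε : ℝ) (y : Fin n → ℤˣ) : ∑ x : Fin n → ℤˣ, chan n ε x y = 1 := by
  have h := sum_chan_chi n ε ∅ y
  simpa using h

lemma sum_chan' (n : ℕ) (ε : ℝ) (x : Fin n → ℤˣ) : ∑ y : Fin n → ℤˣ, chan n ε x y = 1 := by
  simp_rw [chan_symm n ε x]
  exact sum_chan n ε x

lemma joint_eq (n : ℕ) (f : (Fin n → ℤˣ) → ℤˣ) (ε : ℝ) (u : ℤˣ) (y : Fin n → ℤˣ) :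
    joint n f ε u y = (1 + ((u : ℤ) : ℝ) * condMean n f ε y) / (2 * 2 ^ n) := by
  unfold joint condMean
  have h : ∀ x : Fin n → ℤˣ, (if f x = u then chan n ε x y / 2 ^ n else 0)
      = (chan n ε x y + ((u : ℤ) : ℝ) * (chan n ε x y * ((f x : ℤ) : ℝ))) / (2 * 2 ^ n) := by
    intro x
    rcases Int.units_eq_one_or (f x) with hf | hf <;>
      rcases Int.units_eq_one_or u with hu | hu <;>
      simp [hf, hu] <;> ring
  simp_rw [h]
  rw [← Finset.sum_div, Finset.sum_add_distrib, ← Finset.mul_sum, sum_chan]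

lemma lawY_eq (n : ℕ) (f : (Fin n → ℤˣ) → ℤˣ) (ε : ℝ) (y : Fin n → ℤˣ) :
    lawY n f ε y = 1 / 2 ^ n := by
  unfold lawY
  rw [sum_units, joint_eq, joint_eq]
  simp only [Units.val_one, Int.cast_one, Units.val_neg, Int.cast_neg]
  field_simp
  ring

lemma sum_condMean (n : ℕ) (f : (Fin n → ℤˣ) → ℤˣ) (ε : ℝ) :
    ∑ y, condMean n f ε y = 2 ^ n * mean n f := by
  unfold condMean mean
  rw [Finset.sum_comm]
  simp_rw [← Finset.sum_mul, sum_chan']
  field_simp

lemma lawF_eq (n : ℕ) (f : (Fin n → ℤˣ) → ℤˣ) (ε : ℝ) (u : ℤˣ) :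
    lawF n f ε u = (1 + ((u : ℤ) : ℝ) * mean n f) / 2 := by
  unfold lawF
  simp_rw [joint_eq]
  rw [← Finset.sum_div, Finset.sum_add_distrib, ← Finset.mul_sum, sum_condMean, card_cube]
  field_simp

lemma mean_le (n : ℕ) (f : (Fin n → ℤˣ) → ℤˣ) : mean n f ≤ 1 := by
  unfold mean
  rw [div_le_one (by positivity), ← card_cube]
  exact Finset.sum_le_sum (fun x _ => units_le (f x))

lemma le_mean (n : ℕ) (f : (Fin n → ℤˣ) → ℤˣ) : -1 ≤ mean n f := by
  unfold mean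
  rw [le_div_iff₀ (by positivity), ← card_cube, Finset.mul_sum]
  refine Finset.sum_le_sum (fun x _ => ?_)
  have := le_units (f x)
  linarith

lemma condMean_le (n : ℕ) (f : (Fin n → ℤˣ) → ℤˣ) (ε : ℝ) (h0 : 0 ≤ ε) (h1 : ε ≤ 1)
    (y : Fin n → ℤˣ) : condMean n f ε y ≤ 1 := by
  unfold condMean
  rw [← sum_chan n ε y]
  refine Finset.sum_le_sum (fun x _ => ?_)
  have := units_le (f x)
  have := chan_nonneg n ε h0 h1 x y
  nlinarith

lemma le_condMean (n : ℕ) (f : (Fin n → ℤˣ) → ℤˣ) (ε : ℝ) (h0 : 0 ≤ ε) (h1 : ε ≤ 1)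
    (y : Fin n → ℤˣ) : -1 ≤ condMean n f ε y := by
  unfold condMean
  have e : (-1 : ℝ) = ∑ x : Fin n → ℤˣ, -chan n ε x y := by
    rw [Finset.sum_neg_distrib, sum_chan]
  rw [e]
  refine Finset.sum_le_sum (fun x _ => ?_)
  have := le_units (f x)
  have := chan_nonneg n ε h0 h1 x y
  nlinarith


/-- one factor of the channel -/
noncomputable def cf (ε : ℝ) (a b : ℤˣ) : ℝ := if a = b then 1 - ε else ε

lemma cf_add (ε : ℝ) (a b : ℤˣ) : cf ε a b + cf ε (-a) b = 1 := by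
  unfold cf
  rcases Int.units_eq_one_or a with ha | ha <;> rcases Int.units_eq_one_or b with hb | hb <;>
    simp [ha, hb]

lemma cf_nonneg (ε : ℝ) (h0 : 0 ≤ ε) (h1 : ε ≤ 1) (a b : ℤˣ) : 0 ≤ cf ε a b := by
  unfold cf
  split_ifs <;> linarith

/-- the channel without the coordinate `i` -/
noncomputable def Rf (n : ℕ) (ε : ℝ) (i : Fin n) (x y : Fin n → ℤˣ) : ℝ :=
  ∏ j ∈ Finset.univ.erase i, cf ε (x j) (y j)

lemma Rf_nonneg (n : ℕ) (ε : ℝ) (h0 : 0 ≤ ε) (h1 : ε ≤ 1) (i : Fin n) (x y : Fin n → ℤˣ) :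
    0 ≤ Rf n ε i x y :=
  Finset.prod_nonneg (fun _ _ => cf_nonneg ε h0 h1 _ _)

lemma chan_split (n : ℕ) (ε : ℝ) (i : Fin n) (x y : Fin n → ℤˣ) :
    chan n ε x y = cf ε (x i) (y i) * Rf n ε i x y := by
  unfold chan Rf
  exact (Finset.mul_prod_erase Finset.univ (fun j => cf ε (x j) (y j)) (Finset.mem_univ i)).symm

lemma chan_flip (n : ℕ) (ε : ℝ) (i : Fin n) (x y : Fin n → ℤˣ) :
    chan n ε (Function.update x i (-x i)) y = cf ε (-x i) (y i) * Rf n ε i x y := by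
  rw [chan_split n ε i]
  congr 1
  · rw [Function.update_self]
  · unfold Rf
    refine Finset.prod_congr rfl (fun j hj => ?_)
    rw [Function.update_of_ne (Finset.ne_of_mem_erase hj)]

lemma Rf_eq (n : ℕ) (ε : ℝ) (i : Fin n) (x y : Fin n → ℤˣ) :
    Rf n ε i x y = chan n ε x y + chan n ε (Function.update x i (-x i)) y := by
  rw [chan_split n ε i, chan_flip, ← add_mul, cf_add, one_mul]

lemma flip_flip (n : ℕ) (i : Fin n) (x : Fin n → ℤˣ) :
    Function.update (Function.update x i (-x i)) i (-(Function.update x i (-x i)) i) = x := by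
  simp

lemma flipAt_flipAt (n : ℕ) (m : (Fin n → ℤˣ) → Fin n)
    (hm : ∀ x, m (flipAt n m x) = m x) (x : Fin n → ℤˣ) : flipAt n m (flipAt n m x) = x := by
  have h1 : flipAt n m (flipAt n m x)
      = Function.update (flipAt n m x) (m (flipAt n m x))
          (-(flipAt n m x) (m (flipAt n m x))) := rfl
  rw [h1, hm x]
  unfold flipAt
  exact flip_flip n (m x) x

lemma sum_flipAt (n : ℕ) (m : (Fin n → ℤˣ) → Fin n) (hm : ∀ x, m (flipAt n m x) = m x)
    (F : (Fin n → ℤˣ) → ℝ) : ∑ x, F (flipAt n m x) = ∑ x, F x := by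
  have hinv : Function.Involutive (flipAt n m) := fun x => flipAt_flipAt n m hm x
  exact Fintype.sum_bijective _ hinv.bijective _ _ (fun x => rfl)

lemma Rf_eq' (n : ℕ) (ε : ℝ) (m : (Fin n → ℤˣ) → Fin n) (x y : Fin n → ℤˣ) :
    Rf n ε (m x) x y = chan n ε x y + chan n ε (flipAt n m x) y :=
  Rf_eq n ε (m x) x y

lemma sum_Rf_left (n : ℕ) (ε : ℝ) (m : (Fin n → ℤˣ) → Fin n)
    (hm : ∀ x, m (flipAt n m x) = m x) (y : Fin n → ℤˣ) :
    ∑ x, Rf n ε (m x) x y = 2 := by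
  simp_rw [Rf_eq']
  rw [Finset.sum_add_distrib, sum_flipAt n m hm (fun x => chan n ε x y), sum_chan]
  norm_num

lemma sum_Rf_right (n : ℕ) (ε : ℝ) (i : Fin n) (x : Fin n → ℤˣ) :
    ∑ y, Rf n ε i x y = 2 := by
  simp_rw [Rf_eq]
  rw [Finset.sum_add_distrib, sum_chan', sum_chan']
  norm_num

/-- the conditional mean of `f` given `y` and all coordinates of `x` except the `i`-th -/
noncomputable def mval (n : ℕ) (f : (Fin n → ℤˣ) → ℤˣ) (ε : ℝ) (i : Fin n)
    (x y : Fin n → ℤˣ) : ℝ :=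
  cf ε (x i) (y i) * ((f x : ℤ) : ℝ)
    + cf ε (-x i) (y i) * ((f (Function.update x i (-x i)) : ℤ) : ℝ)

lemma condMean_eq_sum (n : ℕ) (f : (Fin n → ℤˣ) → ℤˣ) (ε : ℝ) (m : (Fin n → ℤˣ) → Fin n)
    (hm : ∀ x, m (flipAt n m x) = m x) (y : Fin n → ℤˣ) :
    condMean n f ε y = ∑ x, Rf n ε (m x) x y / 2 * mval n f ε (m x) x y := by
  have h : ∀ x : Fin n → ℤˣ, Rf n ε (m x) x y / 2 * mval n f ε (m x) x y
      = (chan n ε x y * ((f x : ℤ) : ℝ)
        + chan n ε (flipAt n m x) y * ((f (flipAt n m x) : ℤ) : ℝ)) / 2 := by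
    intro x
    unfold flipAt
    rw [chan_split n ε (m x) x y, chan_flip]
    unfold mval
    ring
  simp_rw [h]
  rw [← Finset.sum_div, Finset.sum_add_distrib,
    sum_flipAt n m hm (fun x => chan n ε x y * ((f x : ℤ) : ℝ))]
  unfold condMean
  ring

lemma binEntropy_pm (ε v : ℝ) (hv : v = 1 - 2 * ε ∨ v = -(1 - 2 * ε)) :
    Real.binEntropy ((1 + v) / 2) = Real.binEntropy ε := by
  rcases hv with h | h
  · rw [h, show (1 + (1 - 2 * ε)) / 2 = 1 - ε by ring, Real.binEntropy_one_sub]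
  · rw [h, show (1 + -(1 - 2 * ε)) / 2 = ε by ring]

lemma units_neg_of_ne {s t : ℤˣ} (h : t ≠ s) : t = -s := by
  rcases Int.units_eq_one_or s with hs | hs <;> rcases Int.units_eq_one_or t with ht | ht <;>
    simp_all

lemma binEntropy_aux (ε : ℝ) (a b s t : ℤˣ) :
    Real.binEntropy ((1 + (cf ε a b * ((s : ℤ) : ℝ) + cf ε (-a) b * ((t : ℤ) : ℝ))) / 2)
      = if t ≠ s then Real.binEntropy ε else 0 := by
  by_cases hts : t = s
  · subst hts
    rw [← add_mul, cf_add, one_mul]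
    simp only [ne_eq, not_true_eq_false, if_false]
    rcases Int.units_eq_one_or t with ht | ht <;> simp [ht]
  · rw [if_pos hts]
    have ht := units_neg_of_ne hts
    subst ht
    apply binEntropy_pm
    unfold cf
    rcases Int.units_eq_one_or a with ha | ha <;>
      rcases Int.units_eq_one_or b with hb | hb <;>
      rcases Int.units_eq_one_or s with hc | hc <;>
      simp [ha, hb, hc] <;> first | (left; ring1) | (right; ring1)

/-- the entropy of the conditional law of `f` given `y` and all coordinates except `i` -/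
lemma binEntropy_mval (n : ℕ) (f : (Fin n → ℤˣ) → ℤˣ) (ε : ℝ) (i : Fin n)
    (x y : Fin n → ℤˣ) :
    Real.binEntropy ((1 + mval n f ε i x y) / 2)
      = if f (Function.update x i (-x i)) ≠ f x then Real.binEntropy ε else 0 :=
  binEntropy_aux ε (x i) (y i) (f x) (f (Function.update x i (-x i)))

lemma mval_mem (n : ℕ) (f : (Fin n → ℤˣ) → ℤˣ) (ε : ℝ) (h0 : 0 ≤ ε) (h1 : ε ≤ 1) (i : Fin n)
    (x y : Fin n → ℤˣ) : (1 + mval n f ε i x y) / 2 ∈ Set.Icc (0 : ℝ) 1 := by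
  have hc1 := cf_nonneg ε h0 h1 (x i) (y i)
  have hc2 := cf_nonneg ε h0 h1 (-x i) (y i)
  have hc := cf_add ε (x i) (y i)
  have hf1 := units_le (f x)
  have hf2 := le_units (f x)
  have hf3 := units_le (f (Function.update x i (-x i)))
  have hf4 := le_units (f (Function.update x i (-x i)))
  unfold mval
  constructor <;> nlinarith

/-- Jensen: the entropy of the conditional law of `f` given `y` is at least the probability
that the matched coordinate is pivotal, times the entropy of the noise -/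
lemma binEntropy_condMean_ge (n : ℕ) (f : (Fin n → ℤˣ) → ℤˣ) (ε : ℝ) (h0 : 0 ≤ ε) (h1 : ε ≤ 1)
    (m : (Fin n → ℤˣ) → Fin n) (hm : ∀ x, m (flipAt n m x) = m x) (y : Fin n → ℤˣ) :
    ∑ x, Rf n ε (m x) x y / 2 *
        (if f (flipAt n m x) ≠ f x then Real.binEntropy ε else 0)
      ≤ Real.binEntropy ((1 + condMean n f ε y) / 2) := by
  have hJ := Real.strictConcave_binEntropy.concaveOn.le_map_sum
    (t := (Finset.univ : Finset (Fin n → ℤˣ))) (w := fun x => Rf n ε (m x) x y / 2)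
    (p := fun x => (1 + mval n f ε (m x) x y) / 2)
    (fun x _ => div_nonneg (Rf_nonneg n ε h0 h1 (m x) x y) (by norm_num))
    (by rw [← Finset.sum_div, sum_Rf_left n ε m hm]; norm_num)
    (fun x _ => mval_mem n f ε h0 h1 (m x) x y)
  simp only [smul_eq_mul] at hJ
  have hbe : ∀ x : Fin n → ℤˣ, Real.binEntropy ((1 + mval n f ε (m x) x y) / 2)
      = if f (flipAt n m x) ≠ f x then Real.binEntropy ε else 0 :=
    fun x => binEntropy_mval n f ε (m x) x y
  simp_rw [hbe] at hJ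
  have e : ∑ x, Rf n ε (m x) x y / 2 * ((1 + mval n f ε (m x) x y) / 2)
      = (1 + condMean n f ε y) / 2 := by
    have e' : ∀ x : Fin n → ℤˣ, Rf n ε (m x) x y / 2 * ((1 + mval n f ε (m x) x y) / 2)
        = (Rf n ε (m x) x y / 2 + Rf n ε (m x) x y / 2 * mval n f ε (m x) x y) / 2 := by
      intro x; ring
    simp_rw [e']
    rw [← Finset.sum_div, Finset.sum_add_distrib, ← condMean_eq_sum n f ε m hm,
      ← Finset.sum_div, sum_Rf_left n ε m hm]
    norm_num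
  rw [e] at hJ
  exact hJ

lemma h2_eq (q : ℝ) : h2 q = Real.binEntropy q / Real.log 2 := by
  have hl2 : Real.log 2 ≠ 0 := (Real.log_pos (by norm_num)).ne'
  unfold h2 Real.binEntropy Real.logb
  rw [Real.log_inv, Real.log_inv]
  field_simp
  ring

lemma h2_half (t : ℝ) : h2 ((1 + t) / 2)
    = -((1 + t) / 2 * Real.logb 2 ((1 + t) / 2)) - (1 - t) / 2 * Real.logb 2 ((1 - t) / 2) := by
  unfold h2
  rw [show (1 : ℝ) - (1 + t) / 2 = (1 - t) / 2 by ring]

lemma one_add_nonneg (u v : ℤˣ) : (0 : ℝ) ≤ 1 + ((u : ℤ) : ℝ) * ((v : ℤ) : ℝ) := by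
  rcases Int.units_eq_one_or u with hu | hu <;> rcases Int.units_eq_one_or v with hv | hv <;>
    simp [hu, hv]

/-- if `P(f(X) = u) = 0`, then the conditional probability of `f(X) = u` given `y` vanishes
as well -/
lemma B_zero (n : ℕ) (f : (Fin n → ℤˣ) → ℤˣ) (ε : ℝ) (u : ℤˣ) (y : Fin n → ℤˣ)
    (hA : 1 + ((u : ℤ) : ℝ) * mean n f = 0) : 1 + ((u : ℤ) : ℝ) * condMean n f ε y = 0 := by
  have hN : (0 : ℝ) < 2 ^ n := by positivity
  have hs : ∑ x, (1 + ((u : ℤ) : ℝ) * ((f x : ℤ) : ℝ)) = 0 := by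
    rw [Finset.sum_add_distrib, ← Finset.mul_sum, card_cube]
    unfold mean at hA
    field_simp at hA
    linarith
  have hx : ∀ x, 1 + ((u : ℤ) : ℝ) * ((f x : ℤ) : ℝ) = 0 := fun x =>
    (Finset.sum_eq_zero_iff_of_nonneg (fun x _ => one_add_nonneg u (f x))).mp hs x
      (Finset.mem_univ x)
  have e : 1 + ((u : ℤ) : ℝ) * condMean n f ε y
      = ∑ x, chan n ε x y * (1 + ((u : ℤ) : ℝ) * ((f x : ℤ) : ℝ)) := by
    unfold condMean
    simp_rw [mul_add, mul_one]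
    rw [Finset.sum_add_distrib, sum_chan, Finset.mul_sum]
    congr 1
    exact Finset.sum_congr rfl (fun x _ => by ring)
  rw [e]
  exact Finset.sum_eq_zero (fun x _ => by rw [hx x, mul_zero])

/-- the mutual information as a difference of entropies -/
lemma mi_formula (n : ℕ) (f : (Fin n → ℤˣ) → ℤˣ) (ε : ℝ) :
    mutualInfo n f ε
      = h2 ((1 + mean n f) / 2) - (∑ y, h2 ((1 + condMean n f ε y) / 2)) / 2 ^ n := by
  have hN : (0 : ℝ) < 2 ^ n := by positivity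
  have hterm : ∀ (u : ℤˣ) (y : Fin n → ℤˣ),
      joint n f ε u y * Real.logb 2 (joint n f ε u y / (lawF n f ε u * lawY n f ε y))
      = (1 + ((u : ℤ) : ℝ) * condMean n f ε y) / (2 * 2 ^ n) *
          Real.logb 2 ((1 + ((u : ℤ) : ℝ) * condMean n f ε y) / 2)
        - (1 + ((u : ℤ) : ℝ) * condMean n f ε y) / (2 * 2 ^ n) *
          Real.logb 2 ((1 + ((u : ℤ) : ℝ) * mean n f) / 2) := by
    intro u y
    rw [joint_eq, lawF_eq, lawY_eq]
    by_cases hB : 1 + ((u : ℤ) : ℝ) * condMean n f ε y = 0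
    · rw [hB]; simp
    · have hA : 1 + ((u : ℤ) : ℝ) * mean n f ≠ 0 := fun h => hB (B_zero n f ε u y h)
      have e : (1 + ((u : ℤ) : ℝ) * condMean n f ε y) / (2 * 2 ^ n)
          / ((1 + ((u : ℤ) : ℝ) * mean n f) / 2 * (1 / 2 ^ n))
          = ((1 + ((u : ℤ) : ℝ) * condMean n f ε y) / 2)
            / ((1 + ((u : ℤ) : ℝ) * mean n f) / 2) := by
        field_simp
      rw [e, Real.logb_div (by positivity) (by positivity)]
      ring
  unfold mutualInfo
  simp_rw [hterm]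
  have hsumB : ∀ u : ℤˣ, ∑ y, (1 + ((u : ℤ) : ℝ) * condMean n f ε y) / (2 * 2 ^ n)
      = (1 + ((u : ℤ) : ℝ) * mean n f) / 2 := by
    intro u
    rw [← Finset.sum_div, Finset.sum_add_distrib, ← Finset.mul_sum, sum_condMean, card_cube]
    field_simp
  have hsum : ∀ u : ℤˣ, ∑ y, ((1 + ((u : ℤ) : ℝ) * condMean n f ε y) / (2 * 2 ^ n) *
          Real.logb 2 ((1 + ((u : ℤ) : ℝ) * condMean n f ε y) / 2)
        - (1 + ((u : ℤ) : ℝ) * condMean n f ε y) / (2 * 2 ^ n) *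
          Real.logb 2 ((1 + ((u : ℤ) : ℝ) * mean n f) / 2))
      = ∑ y, (1 + ((u : ℤ) : ℝ) * condMean n f ε y) / (2 * 2 ^ n) *
          Real.logb 2 ((1 + ((u : ℤ) : ℝ) * condMean n f ε y) / 2)
        - (1 + ((u : ℤ) : ℝ) * mean n f) / 2 *
          Real.logb 2 ((1 + ((u : ℤ) : ℝ) * mean n f) / 2) := by
    intro u
    rw [Finset.sum_sub_distrib, ← Finset.sum_mul, hsumB]
  simp_rw [hsum]
  rw [sum_units]
  simp only [Units.val_one, Int.cast_one, Units.val_neg, Int.cast_neg, one_mul]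
  have e1 : ∀ y : Fin n → ℤˣ, h2 ((1 + condMean n f ε y) / 2) / 2 ^ n
      = -((1 + condMean n f ε y) / (2 * 2 ^ n) * Real.logb 2 ((1 + condMean n f ε y) / 2))
        - (1 + -1 * condMean n f ε y) / (2 * 2 ^ n)
          * Real.logb 2 ((1 + -1 * condMean n f ε y) / 2) := by
    intro y
    rw [h2_half, show (1 : ℝ) + -1 * condMean n f ε y = 1 - condMean n f ε y by ring]
    field_simp
  rw [Finset.sum_div]
  simp_rw [e1]
  rw [Finset.sum_sub_distrib, Finset.sum_neg_distrib, h2_half,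
    show (1 : ℝ) + -1 * mean n f = 1 - mean n f by ring]
  ring

lemma probOne_eq (n : ℕ) (f : (Fin n → ℤˣ) → ℤˣ) : probOne n f = (1 + mean n f) / 2 := by
  have hN : (0 : ℝ) < 2 ^ n := by positivity
  unfold probOne mean
  have h : ((Finset.univ.filter (fun x => f x = 1)).card : ℝ)
      = ∑ x, (1 + ((f x : ℤ) : ℝ)) / 2 := by
    rw [← Finset.sum_boole]
    refine Finset.sum_congr rfl (fun x _ => ?_)
    rcases Int.units_eq_one_or (f x) with hf | hf <;> simp [hf]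
  rw [h, ← Finset.sum_div, Finset.sum_add_distrib, card_cube]
  field_simp

/-- the general bound -/
theorem main_ineq (n : ℕ) (f : (Fin n → ℤˣ) → ℤˣ) (m : (Fin n → ℤˣ) → Fin n)
    (hm : ∀ x, m (flipAt n m x) = m x) (ε : ℝ) (h0 : 0 ≤ ε)
    (h1 : ε ≤ 1 / 2) : mutualInfo n f ε ≤ h2 (probOne n f) - pivFrac n f m * h2 ε := by
  have hN : (0 : ℝ) < 2 ^ n := by positivity
  have hl2 : 0 < Real.log 2 := Real.log_pos (by norm_num)
  rw [mi_formula, probOne_eq]
  have hJ : ∀ y : Fin n → ℤˣ, ∑ x, Rf n ε (m x) x y / 2 *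
        (if f (flipAt n m x) ≠ f x then Real.binEntropy ε else 0)
      ≤ Real.binEntropy ((1 + condMean n f ε y) / 2) :=
    fun y => binEntropy_condMean_ge n f ε h0 (by linarith) m hm y
  have hsum := Finset.sum_le_sum (fun y (_ : y ∈ (Finset.univ : Finset (Fin n → ℤˣ))) => hJ y)
  rw [Finset.sum_comm] at hsum
  have hx : ∀ x : Fin n → ℤˣ, ∑ y, Rf n ε (m x) x y / 2 *
        (if f (flipAt n m x) ≠ f x then Real.binEntropy ε else 0)
      = (if f (flipAt n m x) ≠ f x then (1 : ℝ) else 0) * Real.binEntropy ε := by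
    intro x
    rw [← Finset.sum_mul, ← Finset.sum_div, sum_Rf_right]
    split_ifs <;> simp
  simp_rw [hx] at hsum
  rw [← Finset.sum_mul, Finset.sum_boole] at hsum
  have hinfl : pivFrac n f m * h2 ε
      = ((Finset.univ.filter (fun x => f (flipAt n m x) ≠ f x)).card : ℝ)
        * Real.binEntropy ε / Real.log 2 / 2 ^ n := by
    unfold pivFrac
    rw [h2_eq]
    field_simp
  have hS : (∑ y, h2 ((1 + condMean n f ε y) / 2)) / 2 ^ n
      = (∑ y, Real.binEntropy ((1 + condMean n f ε y) / 2)) / Real.log 2 / 2 ^ n := by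
    simp_rw [h2_eq]
    rw [← Finset.sum_div]
  rw [hinfl, hS]
  have h3 : ((Finset.univ.filter (fun x => f (flipAt n m x) ≠ f x)).card : ℝ)
        * Real.binEntropy ε / Real.log 2 / 2 ^ n
      ≤ (∑ y, Real.binEntropy ((1 + condMean n f ε y) / 2)) / Real.log 2 / 2 ^ n := by
    apply div_le_div_of_nonneg_right _ hN.le
    apply div_le_div_of_nonneg_right _ hl2.le
    exact hsum
  linarith

theorem result :
    ∀ (n : ℕ) (f : (Fin n → ℤˣ) → ℤˣ) (m : (Fin n → ℤˣ) → Fin n) (ε : ℝ), 0 ≤ ε → ε ≤ 1 / 2 →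
      (∀ x, m (flipAt n m x) = m x) →
      mutualInfo n f ε ≤ h2 (probOne n f) - pivFrac n f m * h2 ε ∧
      ((∀ x, f (flipAt n m x) ≠ f x) → mutualInfo n f ε ≤ 1 - h2 ε) := by
  intro n f m ε h0 h1 hm
  have hmain := main_ineq n f m hm ε h0 h1
  refine ⟨hmain, ?_⟩
  intro hall
  have hN : (0 : ℝ) < 2 ^ n := by positivity
  have hinfl : pivFrac n f m = 1 := by
    unfold pivFrac
    rw [Finset.filter_true_of_mem (fun x _ => hall x)]
    have hc : ((Finset.univ : Finset (Fin n → ℤˣ)).card : ℝ) = 2 ^ n := by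
      rw [← card_cube]; simp
    rw [hc]
    field_simp
  have hle : h2 (probOne n f) ≤ 1 := by
    rw [h2_eq, div_le_one (Real.log_pos (by norm_num))]
    exact Real.binEntropy_le_log_two
  rw [hinfl, one_mul] at hmain
  linarith

end Vale.Agent.Results.P322.PivotalMatching
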