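import Vale.Agent.Results.P322.NoLowLevelWeight
import Vale.Agent.Results.P322.PivotalMatching

namespace Vale.Agent.Results.P322.LowWeightAndMatching

open Finset
open Vale.Agent.Results.P322.PivotalMatching (mutualInfo h2 probOne flipAt pivFrac)

theorem mutualInfo_eq (n : ℕ) (f : (Fin n → ℤˣ) → ℤˣ) (ε : ℝ) :
    Vale.Agent.Results.P322.NoLowLevelWeight.mutualInfo n f ε = mutualInfo n f ε := rfl

theorem h2_eq (p : ℝ) : Vale.Agent.Results.P322.NoLowLevelWeight.h2 p = h2 p := rfl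

theorem result :
    (∀ (n k : ℕ) (f : (Fin n → ℤˣ) → ℤˣ) (ε : ℝ), 0 ≤ ε → ε ≤ 1 / 2 →
      (∀ S : Finset (Fin n), S.Nonempty → S.card ≤ k →
        ∑ x, ((f x : ℤ) : ℝ) * ∏ i ∈ S, ((x i : ℤ) : ℝ) = 0) →
      mutualInfo n f ε ≤ Real.logb 2 (1 + (1 - 2 * ε) ^ (2 * k + 2)) ∧
      (((1 - 2 * ε) ^ (2 * k) ≤ 1 / 2 ∨ (1 ≤ k ∧ Real.exp (-(k : ℝ)) ≤ ε)) →
        mutualInfo n f ε ≤ 1 - h2 ε)) ∧
    (∀ (n : ℕ) (f : (Fin n → ℤˣ) → ℤˣ) (ε : ℝ), 0 ≤ ε → ε ≤ 1 / 2 →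
      (∀ x, f (fun i => -x i) = f x) → (1 - 2 * ε) ^ 2 ≤ 1 / 2 →
      mutualInfo n f ε ≤ 1 - h2 ε) ∧
    (∀ (n : ℕ) (f : (Fin n → ℤˣ) → ℤˣ) (m : (Fin n → ℤˣ) → Fin n) (ε : ℝ), 0 ≤ ε → ε ≤ 1 / 2 →
      (∀ x, m (flipAt n m x) = m x) →
      mutualInfo n f ε ≤ h2 (probOne n f) - pivFrac n f m * h2 ε ∧
      ((∀ x, f (flipAt n m x) ≠ f x) → mutualInfo n f ε ≤ 1 - h2 ε)) := by
  refine ⟨fun n k f ε h0 h1 hf => ?_, fun n f ε h0 h1 hev hr => ?_,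
    Vale.Agent.Results.P322.PivotalMatching.result⟩
  · have h := Vale.Agent.Results.P322.NoLowLevelWeight.result.1 n k f ε h0 h1 hf
    rw [mutualInfo_eq, h2_eq] at h
    exact h
  · have h := Vale.Agent.Results.P322.NoLowLevelWeight.result.2 n f ε h0 h1 hev hr
    rw [mutualInfo_eq, h2_eq] at h
    exact h

end Vale.Agent.Results.P322.LowWeightAndMatching
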