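import Mathlib

namespace Vale.Agent.Results.P322.NoLowLevelWeight

open Finset

/-- the probability that the memoryless binary symmetric channel with crossover probability `ε`
turns the input `x` into the output `y` -/
noncomputable def chan (n : ℕ) (ε : ℝ) (x y : Fin n → ℤˣ) : ℝ :=
  ∏ i, if x i = y i then 1 - ε else ε

/-- the joint law of `(f(X), Y)`: the probability that `f(X) = u` and `Y = y` -/
noncomputable def joint (n : ℕ) (f : (Fin n → ℤˣ) → ℤˣ) (ε : ℝ) (u : ℤˣ)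
    (y : Fin n → ℤˣ) : ℝ :=
  ∑ x, if f x = u then chan n ε x y / 2 ^ n else 0

/-- the law of `f(X)` -/
noncomputable def lawF (n : ℕ) (f : (Fin n → ℤˣ) → ℤˣ) (ε : ℝ) (u : ℤˣ) : ℝ :=
  ∑ y, joint n f ε u y

/-- the law of `Y` -/
noncomputable def lawY (n : ℕ) (f : (Fin n → ℤˣ) → ℤˣ) (ε : ℝ) (y : Fin n → ℤˣ) : ℝ :=
  ∑ u, joint n f ε u y

/-- the mutual information `I(f(X);Y)` in bits -/
noncomputable def mutualInfo (n : ℕ) (f : (Fin n → ℤˣ) → ℤˣ) (ε : ℝ) : ℝ :=
  ∑ u, ∑ y, joint n f ε u y *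
    Real.logb 2 (joint n f ε u y / (lawF n f ε u * lawY n f ε y))

/-- the binary entropy function in bits -/
noncomputable def h2 (p : ℝ) : ℝ := -(p * Real.logb 2 p) - (1 - p) * Real.logb 2 (1 - p)

/-- the mean `E f(X)` -/
noncomputable def mean (n : ℕ) (f : (Fin n → ℤˣ) → ℤˣ) : ℝ :=
  (∑ x, ((f x : ℤ) : ℝ)) / 2 ^ n

/-- the conditional mean `E[f(X) | Y = y]` -/
noncomputable def condMean (n : ℕ) (f : (Fin n → ℤˣ) → ℤˣ) (ε : ℝ) (y : Fin n → ℤˣ) : ℝ :=
  ∑ x, chan n ε x y * ((f x : ℤ) : ℝ)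

lemma entropy_ineq (r : ℝ) (h0 : 0 ≤ r) (h1 : r < 1) :
    r ^ 2 ≤ (1 - r) * Real.log (1 - r) + (1 + r) * Real.log (1 + r) := by
  have habs : |r| < 1 := by rw [abs_of_nonneg h0]; exact h1
  have habs2 : |r ^ 2| < 1 := by
    rw [abs_of_nonneg (by positivity)]; nlinarith
  have hA := Real.hasSum_log_sub_log_of_abs_lt_one habs
  have hB := Real.hasSum_pow_div_log_of_abs_lt_one habs2
  have hlog : Real.log (1 - r ^ 2) = Real.log (1 - r) + Real.log (1 + r) := by
    rw [← Real.log_mul (by linarith) (by linarith)]; congr 1; ring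
  have hC := (hA.mul_left r).sub hB
  have hle := le_hasSum hC 0 (fun k _ => by
    have e : r * (2 * (1 / (2 * (k : ℝ) + 1)) * r ^ (2 * k + 1)) - (r ^ 2) ^ (k + 1) / ((k : ℝ) + 1)
        = (r ^ 2) ^ (k + 1) * (1 / ((2 * (k : ℝ) + 1) * ((k : ℝ) + 1))) := by
      have hk1 : (2 * (k : ℝ) + 1) ≠ 0 := by positivity
      have hk2 : ((k : ℝ) + 1) ≠ 0 := by positivity
      field_simp
      ring
    rw [e]
    positivity)
  simp only [Nat.cast_zero, mul_zero, zero_add, pow_one, div_one] at hle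
  rw [hlog] at hle
  nlinarith

lemma h2_bound (ε : ℝ) (h0 : 0 ≤ ε) (h1 : ε ≤ 1 / 2) :
    (1 - 2 * ε) ^ 2 / 2 / Real.log 2 ≤ 1 - h2 ε := by
  have hl2 : 0 < Real.log 2 := Real.log_pos (by norm_num)
  rcases eq_or_lt_of_le h0 with h | h
  · subst h
    have : (1 : ℝ) / 2 < Real.log 2 := by
      have := Real.log_two_gt_d9
      linarith
    unfold h2
    simp only [mul_zero, sub_zero, zero_mul, neg_zero, Real.logb_one, mul_zero]
    rw [div_le_iff₀ hl2]
    norm_num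
    linarith
  · have hr := entropy_ineq (1 - 2 * ε) (by linarith) (by linarith)
    have e1 : Real.log (1 - (1 - 2 * ε)) = Real.log 2 + Real.log ε := by
      rw [← Real.log_mul (by norm_num) (by linarith)]; congr 1; ring
    have e2 : Real.log (1 + (1 - 2 * ε)) = Real.log 2 + Real.log (1 - ε) := by
      rw [← Real.log_mul (by norm_num) (by linarith)]; congr 1; ring
    rw [e1, e2] at hr
    unfold h2 Real.logb
    rw [div_le_iff₀ hl2]
    have e3 : (1 - (-(ε * (Real.log ε / Real.log 2)) - (1 - ε) * (Real.log (1 - ε) / Real.log 2)))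
        * Real.log 2 = Real.log 2 + ε * Real.log ε + (1 - ε) * Real.log (1 - ε) := by
      field_simp
      ring
    rw [e3]
    nlinarith

lemma units_ne : (1 : ℤˣ) ≠ -1 := by decide

lemma sum_units (F : ℤˣ → ℝ) : ∑ u : ℤˣ, F u = F 1 + F (-1) := by
  rw [show (Finset.univ : Finset ℤˣ) = {1, -1} from rfl]
  exact Finset.sum_pair units_ne

lemma sq_units (u : ℤˣ) : ((u : ℤ) : ℝ) ^ 2 = 1 := by
  rcases Int.units_eq_one_or u with h | h <;> simp [h]

lemma units_le (u : ℤˣ) : ((u : ℤ) : ℝ) ≤ 1 := by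
  rcases Int.units_eq_one_or u with h | h <;> simp [h]

lemma le_units (u : ℤˣ) : -1 ≤ ((u : ℤ) : ℝ) := by
  rcases Int.units_eq_one_or u with h | h <;> simp [h]

lemma card_cube (n : ℕ) : ∑ _x : Fin n → ℤˣ, (1 : ℝ) = 2 ^ n := by
  simp

lemma chan_symm (n : ℕ) (ε : ℝ) (x y : Fin n → ℤˣ) : chan n ε x y = chan n ε y x := by
  unfold chan
  refine Finset.prod_congr rfl (fun i _ => ?_)
  simp only [eq_comm]

lemma chan_nonneg (n : ℕ) (ε : ℝ) (h0 : 0 ≤ ε) (h1 : ε ≤ 1) (x y : Fin n → ℤˣ) :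
    0 ≤ chan n ε x y := by
  unfold chan
  apply Finset.prod_nonneg
  intro i _
  split_ifs <;> linarith

lemma sum_chan_chi (n : ℕ) (ε : ℝ) (S : Finset (Fin n)) (y : Fin n → ℤˣ) :
    ∑ x : Fin n → ℤˣ, chan n ε x y * ∏ i ∈ S, ((x i : ℤ) : ℝ)
      = (1 - 2 * ε) ^ S.card * ∏ i ∈ S, ((y i : ℤ) : ℝ) := by
  have h1 : ∀ x : Fin n → ℤˣ, chan n ε x y * ∏ i ∈ S, ((x i : ℤ) : ℝ)
      = ∏ i, ((if x i = y i then 1 - ε else ε) * (if i ∈ S then ((x i : ℤ) : ℝ) else 1)) := by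
    intro x
    unfold chan
    rw [Finset.prod_mul_distrib, Finset.prod_ite_mem, Finset.univ_inter]
  simp_rw [h1]
  rw [← Fintype.prod_sum (fun (i : Fin n) (a : ℤˣ) =>
    (if a = y i then 1 - ε else ε) * (if i ∈ S then ((a : ℤ) : ℝ) else 1))]
  have h2 : ∀ i : Fin n,
      ∑ a : ℤˣ, (if a = y i then 1 - ε else ε) * (if i ∈ S then ((a : ℤ) : ℝ) else 1)
      = if i ∈ S then (1 - 2 * ε) * ((y i : ℤ) : ℝ) else 1 := by
    intro i
    rw [sum_units]
    rcases Int.units_eq_one_or (y i) with h | h <;> by_cases hi : i ∈ S <;>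
      simp [h, hi] <;> ring
  simp_rw [h2]
  rw [Finset.prod_ite_mem, Finset.univ_inter, Finset.prod_mul_distrib, Finset.prod_const]

lemma sum_chan (n : ℕ) (ε : ℝ) (y : Fin n → ℤˣ) : ∑ x : Fin n → ℤˣ, chan n ε x y = 1 := by
  have h := sum_chan_chi n ε ∅ y
  simpa using h

lemma sum_chan' (n : ℕ) (ε : ℝ) (x : Fin n → ℤˣ) : ∑ y : Fin n → ℤˣ, chan n ε x y = 1 := by
  simp_rw [chan_symm n ε x]
  exact sum_chan n ε x

lemma sum_chi_mul_chi (n : ℕ) (x y : Fin n → ℤˣ) :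
    ∑ S : Finset (Fin n), (∏ i ∈ S, ((x i : ℤ) : ℝ)) * ∏ i ∈ S, ((y i : ℤ) : ℝ)
      = if x = y then (2 : ℝ) ^ n else 0 := by
  simp_rw [← Finset.prod_mul_distrib]
  have h2 := Finset.prod_one_add (f := fun i => ((x i : ℤ) : ℝ) * ((y i : ℤ) : ℝ))
    (Finset.univ : Finset (Fin n))
  rw [Finset.powerset_univ] at h2
  rw [← h2]
  split_ifs with hxy
  · subst hxy
    have : ∀ i : Fin n, (1 : ℝ) + ((x i : ℤ) : ℝ) * ((x i : ℤ) : ℝ) = 2 := by
      intro i
      have := sq_units (x i)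
      nlinarith
    simp_rw [this]
    simp
  · obtain ⟨i, hi⟩ := Function.ne_iff.mp hxy
    apply Finset.prod_eq_zero (Finset.mem_univ i)
    rcases Int.units_eq_one_or (x i) with hu | hu <;>
      rcases Int.units_eq_one_or (y i) with hv | hv <;> simp_all

lemma parseval (n : ℕ) (a : (Fin n → ℤˣ) → ℝ) :
    ∑ S : Finset (Fin n), (∑ x, a x * ∏ i ∈ S, ((x i : ℤ) : ℝ)) ^ 2
      = 2 ^ n * ∑ x, a x ^ 2 := by
  have h : ∀ S : Finset (Fin n), (∑ x, a x * ∏ i ∈ S, ((x i : ℤ) : ℝ)) ^ 2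
      = ∑ x, ∑ y, a x * a y * ((∏ i ∈ S, ((x i : ℤ) : ℝ)) * ∏ i ∈ S, ((y i : ℤ) : ℝ)) := by
    intro S
    rw [sq, Finset.sum_mul_sum]
    exact Finset.sum_congr rfl (fun x _ => Finset.sum_congr rfl (fun y _ => by ring))
  simp_rw [h]
  rw [Finset.sum_comm, Finset.mul_sum]
  refine Finset.sum_congr rfl (fun x _ => ?_)
  rw [Finset.sum_comm]
  simp_rw [← Finset.mul_sum, sum_chi_mul_chi]
  simp
  ring

lemma joint_eq (n : ℕ) (f : (Fin n → ℤˣ) → ℤˣ) (ε : ℝ) (u : ℤˣ) (y : Fin n → ℤˣ) :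
    joint n f ε u y = (1 + ((u : ℤ) : ℝ) * condMean n f ε y) / (2 * 2 ^ n) := by
  unfold joint condMean
  have h : ∀ x : Fin n → ℤˣ, (if f x = u then chan n ε x y / 2 ^ n else 0)
      = (chan n ε x y + ((u : ℤ) : ℝ) * (chan n ε x y * ((f x : ℤ) : ℝ))) / (2 * 2 ^ n) := by
    intro x
    rcases Int.units_eq_one_or (f x) with hf | hf <;>
      rcases Int.units_eq_one_or u with hu | hu <;>
      simp [hf, hu] <;> ring
  simp_rw [h]
  rw [← Finset.sum_div, Finset.sum_add_distrib, ← Finset.mul_sum, sum_chan]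

lemma lawY_eq (n : ℕ) (f : (Fin n → ℤˣ) → ℤˣ) (ε : ℝ) (y : Fin n → ℤˣ) :
    lawY n f ε y = 1 / 2 ^ n := by
  unfold lawY
  rw [sum_units, joint_eq, joint_eq]
  simp only [Units.val_one, Int.cast_one, Units.val_neg, Int.cast_neg]
  field_simp
  ring

lemma sum_condMean (n : ℕ) (f : (Fin n → ℤˣ) → ℤˣ) (ε : ℝ) :
    ∑ y, condMean n f ε y = 2 ^ n * mean n f := by
  unfold condMean mean
  rw [Finset.sum_comm]
  simp_rw [← Finset.sum_mul, sum_chan']
  field_simp

lemma lawF_eq (n : ℕ) (f : (Fin n → ℤˣ) → ℤˣ) (ε : ℝ) (u : ℤˣ) :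
    lawF n f ε u = (1 + ((u : ℤ) : ℝ) * mean n f) / 2 := by
  unfold lawF
  simp_rw [joint_eq]
  rw [← Finset.sum_div, Finset.sum_add_distrib, ← Finset.mul_sum, sum_condMean, card_cube]
  field_simp

lemma mean_le (n : ℕ) (f : (Fin n → ℤˣ) → ℤˣ) : mean n f ≤ 1 := by
  unfold mean
  rw [div_le_one (by positivity), ← card_cube]
  exact Finset.sum_le_sum (fun x _ => units_le (f x))

lemma le_mean (n : ℕ) (f : (Fin n → ℤˣ) → ℤˣ) : -1 ≤ mean n f := by
  unfold mean
  rw [le_div_iff₀ (by positivity), ← card_cube, Finset.mul_sum]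
  refine Finset.sum_le_sum (fun x _ => ?_)
  have := le_units (f x)
  linarith

lemma condMean_le (n : ℕ) (f : (Fin n → ℤˣ) → ℤˣ) (ε : ℝ) (h0 : 0 ≤ ε) (h1 : ε ≤ 1)
    (y : Fin n → ℤˣ) : condMean n f ε y ≤ 1 := by
  unfold condMean
  rw [← sum_chan n ε y]
  refine Finset.sum_le_sum (fun x _ => ?_)
  have := units_le (f x)
  have := chan_nonneg n ε h0 h1 x y
  nlinarith

lemma le_condMean (n : ℕ) (f : (Fin n → ℤˣ) → ℤˣ) (ε : ℝ) (h0 : 0 ≤ ε) (h1 : ε ≤ 1)
    (y : Fin n → ℤˣ) : -1 ≤ condMean n f ε y := by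
  unfold condMean
  have e : (-1 : ℝ) = ∑ x : Fin n → ℤˣ, -chan n ε x y := by
    rw [Finset.sum_neg_distrib, sum_chan]
  rw [e]
  refine Finset.sum_le_sum (fun x _ => ?_)
  have := le_units (f x)
  have := chan_nonneg n ε h0 h1 x y
  nlinarith

/-- the chi-square bound on the mutual information, in its logarithmic form -/
theorem crit_log (n : ℕ) (f : (Fin n → ℤˣ) → ℤˣ) (ε : ℝ) (h0 : 0 ≤ ε) (h1 : ε ≤ 1 / 2)
    (v : ℝ) (hv0 : 0 ≤ v)
    (hv : (∑ y, (condMean n f ε y - mean n f) ^ 2) / 2 ^ n ≤ v * (1 - mean n f ^ 2)) :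
    mutualInfo n f ε ≤ Real.logb 2 (1 + v) := by
  have hl2 : 0 < Real.log 2 := Real.log_pos (by norm_num)
  have hN : (0 : ℝ) < 2 ^ n := by positivity
  have hμ1 := mean_le n f
  have hμ2 := le_mean n f
  have hc : 0 < 1 + v := by linarith
  have hlogc : 0 ≤ Real.log (1 + v) := Real.log_nonneg (by linarith)
  have hterm : ∀ (u : ℤˣ) (y : Fin n → ℤˣ),
      joint n f ε u y * Real.logb 2 (joint n f ε u y / (lawF n f ε u * lawY n f ε y))
      = (1 + ((u : ℤ) : ℝ) * condMean n f ε y) / (2 * 2 ^ n) *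
        Real.logb 2 ((1 + ((u : ℤ) : ℝ) * condMean n f ε y) / (1 + ((u : ℤ) : ℝ) * mean n f)) := by
    intro u y
    rw [joint_eq, lawF_eq, lawY_eq]
    congr 2
    by_cases hz : 1 + ((u : ℤ) : ℝ) * mean n f = 0
    · simp [hz]
    · field_simp
  have hmu : mean n f ^ 2 ≤ 1 := by nlinarith
  rcases eq_or_lt_of_le hmu with hμe | hμl
  · -- degenerate case: the function is constant
    have hs : ∑ y, (condMean n f ε y - mean n f) ^ 2 ≤ 0 := by
      rw [hμe] at hv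
      have : (∑ y, (condMean n f ε y - mean n f) ^ 2) / 2 ^ n ≤ 0 := by linarith
      by_contra hc'
      push Not at hc'
      have := div_pos hc' hN
      linarith
    have hs' : ∑ y, (condMean n f ε y - mean n f) ^ 2 = 0 :=
      le_antisymm hs (Finset.sum_nonneg (fun y _ => sq_nonneg _))
    have hg : ∀ y, condMean n f ε y = mean n f := by
      intro y
      have := (Finset.sum_eq_zero_iff_of_nonneg (fun y _ => sq_nonneg _)).mp hs' y
        (Finset.mem_univ y)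
      nlinarith
    have hI : mutualInfo n f ε = 0 := by
      unfold mutualInfo
      apply Finset.sum_eq_zero
      intro u _
      apply Finset.sum_eq_zero
      intro y _
      rw [hterm, hg y]
      by_cases hz : 1 + ((u : ℤ) : ℝ) * mean n f = 0
      · simp [hz]
      · rw [div_self hz]; simp
    rw [hI]
    exact div_nonneg hlogc hl2.le
  · -- main case
    have hm1 : 0 < 1 + mean n f := by nlinarith
    have hm2 : 0 < 1 - mean n f := by nlinarith
    have hA : ∀ u : ℤˣ, 0 < 1 + ((u : ℤ) : ℝ) * mean n f := by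
      intro u
      rcases Int.units_eq_one_or u with h | h <;> simp [h] <;> linarith
    have hB : ∀ (u : ℤˣ) (y : Fin n → ℤˣ), 0 ≤ 1 + ((u : ℤ) : ℝ) * condMean n f ε y := by
      intro u y
      have := condMean_le n f ε h0 (by linarith) y
      have := le_condMean n f ε h0 (by linarith) y
      rcases Int.units_eq_one_or u with h | h <;> simp [h] <;> linarith
    have hbound : ∀ (u : ℤˣ) (y : Fin n → ℤˣ),
        (1 + ((u : ℤ) : ℝ) * condMean n f ε y) / (2 * 2 ^ n) *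
          Real.logb 2 ((1 + ((u : ℤ) : ℝ) * condMean n f ε y) / (1 + ((u : ℤ) : ℝ) * mean n f))
        ≤ (1 + ((u : ℤ) : ℝ) * condMean n f ε y) / (2 * 2 ^ n) *
          (((1 + ((u : ℤ) : ℝ) * condMean n f ε y) / (1 + ((u : ℤ) : ℝ) * mean n f) / (1 + v)
            - 1 + Real.log (1 + v)) / Real.log 2) := by
      intro u y
      rcases eq_or_lt_of_le (hB u y) with hb | hb
      · rw [← hb]; simp
      · apply mul_le_mul_of_nonneg_left _ (by positivity)
        unfold Real.logb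
        apply div_le_div_of_nonneg_right _ hl2.le
        have hq := div_pos hb (hA u)
        have h3 := Real.log_le_sub_one_of_pos (div_pos hq hc)
        rw [Real.log_div hq.ne' hc.ne'] at h3
        linarith
    have hsum : mutualInfo n f ε ≤ ∑ y : Fin n → ℤˣ,
        ((1 + (condMean n f ε y - mean n f) ^ 2 / (1 - mean n f ^ 2)) / (1 + v) - 1
          + Real.log (1 + v)) / (2 ^ n * Real.log 2) := by
      unfold mutualInfo
      simp_rw [hterm]
      rw [Finset.sum_comm]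
      refine Finset.sum_le_sum (fun y _ => ?_)
      refine le_trans (Finset.sum_le_sum (fun u _ => hbound u y)) ?_
      rw [sum_units]
      simp only [Units.val_one, Int.cast_one, Units.val_neg, Int.cast_neg]
      apply le_of_eq
      have hd : (1 : ℝ) - mean n f ^ 2 = (1 + mean n f) * (1 - mean n f) := by ring
      rw [hd]
      have e1 : (1 : ℝ) + -1 * mean n f = 1 - mean n f := by ring
      rw [e1]
      field_simp
      ring
    have hfin : ∑ y : Fin n → ℤˣ,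
        ((1 + (condMean n f ε y - mean n f) ^ 2 / (1 - mean n f ^ 2)) / (1 + v) - 1
          + Real.log (1 + v)) / (2 ^ n * Real.log 2)
        ≤ Real.logb 2 (1 + v) := by
      have hpos : 0 < 1 - mean n f ^ 2 := by linarith
      rw [← Finset.sum_div]
      unfold Real.logb
      rw [div_le_div_iff₀ (by positivity) hl2]
      have e : ∑ y : Fin n → ℤˣ,
          ((1 + (condMean n f ε y - mean n f) ^ 2 / (1 - mean n f ^ 2)) / (1 + v) - 1
            + Real.log (1 + v))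
          = ((∑ y : Fin n → ℤˣ, (condMean n f ε y - mean n f) ^ 2) / (1 - mean n f ^ 2)
              - 2 ^ n * v) / (1 + v) + 2 ^ n * Real.log (1 + v) := by
        have e' : ∀ y : Fin n → ℤˣ,
            ((1 + (condMean n f ε y - mean n f) ^ 2 / (1 - mean n f ^ 2)) / (1 + v) - 1
              + Real.log (1 + v))
            = (condMean n f ε y - mean n f) ^ 2 / ((1 - mean n f ^ 2) * (1 + v))
              + (Real.log (1 + v) - v / (1 + v)) * 1 := by
          intro y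
          field_simp
          ring
        simp_rw [e']
        rw [Finset.sum_add_distrib, ← Finset.mul_sum, card_cube, ← Finset.sum_div]
        field_simp
        ring
      rw [e]
      have hq : (∑ y : Fin n → ℤˣ, (condMean n f ε y - mean n f) ^ 2) / (1 - mean n f ^ 2)
          ≤ 2 ^ n * v := by
        rw [div_le_iff₀ hpos]
        rw [div_le_iff₀ hN] at hv
        linarith
      have hq2 : ((∑ y : Fin n → ℤˣ, (condMean n f ε y - mean n f) ^ 2) / (1 - mean n f ^ 2)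
          - 2 ^ n * v) / (1 + v) ≤ 0 :=
        div_nonpos_of_nonpos_of_nonneg (by linarith) hc.le
      nlinarith
    linarith

/-- the Fourier side: the conditional mean has the coefficients of `f` damped by powers of
`1 - 2 ε` -/
lemma fourier_condMean (n : ℕ) (f : (Fin n → ℤˣ) → ℤˣ) (ε : ℝ) (S : Finset (Fin n)) :
    ∑ y, condMean n f ε y * ∏ i ∈ S, ((y i : ℤ) : ℝ)
      = (1 - 2 * ε) ^ S.card * ∑ x, ((f x : ℤ) : ℝ) * ∏ i ∈ S, ((x i : ℤ) : ℝ) := by
  unfold condMean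
  simp_rw [Finset.sum_mul]
  rw [Finset.sum_comm, Finset.mul_sum]
  refine Finset.sum_congr rfl (fun x _ => ?_)
  have h : ∀ y : Fin n → ℤˣ, chan n ε x y * ((f x : ℤ) : ℝ) * ∏ i ∈ S, ((y i : ℤ) : ℝ)
      = ((f x : ℤ) : ℝ) * (chan n ε y x * ∏ i ∈ S, ((y i : ℤ) : ℝ)) := by
    intro y
    rw [chan_symm n ε x y]
    ring
  simp_rw [h]
  rw [← Finset.mul_sum, sum_chan_chi]
  ring

/-- variance bound for functions without Fourier weight on the levels `1, ..., k` -/
lemma var_bound (n k : ℕ) (f : (Fin n → ℤˣ) → ℤˣ) (ε : ℝ) (h0 : 0 ≤ ε) (h1 : ε ≤ 1 / 2)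
    (hf : ∀ S : Finset (Fin n), S.Nonempty → S.card ≤ k →
      ∑ x, ((f x : ℤ) : ℝ) * ∏ i ∈ S, ((x i : ℤ) : ℝ) = 0) :
    (∑ y, (condMean n f ε y - mean n f) ^ 2) / 2 ^ n
      ≤ (1 - 2 * ε) ^ (2 * k + 2) * (1 - mean n f ^ 2) := by
  have hN : (0 : ℝ) < 2 ^ n := by positivity
  have hr0 : 0 ≤ 1 - 2 * ε := by linarith
  have hr1 : 1 - 2 * ε ≤ 1 := by linarith
  have hμ1 := mean_le n f
  have hμ2 := le_mean n f
  have hmu : 0 ≤ 1 - mean n f ^ 2 := by nlinarith
  -- Parseval for `f`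
  have hP1 := parseval n (fun x => ((f x : ℤ) : ℝ))
  simp only [sq_units] at hP1
  rw [card_cube] at hP1
  -- Parseval for the conditional mean
  have hP2 := parseval n (condMean n f ε)
  simp_rw [fourier_condMean] at hP2
  -- the empty set
  have hF0 : ∑ x, ((f x : ℤ) : ℝ) * ∏ i ∈ (∅ : Finset (Fin n)), ((x i : ℤ) : ℝ)
      = 2 ^ n * mean n f := by
    unfold mean
    simp only [Finset.prod_empty, mul_one]
    field_simp
  -- the key termwise comparison
  have hkey : ∑ S : Finset (Fin n),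
      (((1 - 2 * ε) ^ S.card * ∑ x, ((f x : ℤ) : ℝ) * ∏ i ∈ S, ((x i : ℤ) : ℝ)) ^ 2
        - (1 - 2 * ε) ^ (2 * k + 2) * (∑ x, ((f x : ℤ) : ℝ) * ∏ i ∈ S, ((x i : ℤ) : ℝ)) ^ 2)
      ≤ ∑ S : Finset (Fin n), if S = ∅ then
          (1 - (1 - 2 * ε) ^ (2 * k + 2)) * (2 ^ n * mean n f) ^ 2 else 0 := by
    refine Finset.sum_le_sum (fun S _ => ?_)
    split_ifs with hS
    · subst hS
      rw [hF0]
      simp only [Finset.card_empty, pow_zero, one_mul]
      apply le_of_eq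
      ring
    · have hSne : S.Nonempty := Finset.nonempty_iff_ne_empty.mpr hS
      by_cases hc : S.card ≤ k
      · rw [hf S hSne hc]
        simp
      · push Not at hc
        have hpow : ((1 - 2 * ε) ^ S.card) ^ 2 ≤ (1 - 2 * ε) ^ (2 * k + 2) := by
          rw [← pow_mul]
          apply pow_le_pow_of_le_one hr0 hr1
          omega
        rw [mul_pow]
        have := sq_nonneg (∑ x, ((f x : ℤ) : ℝ) * ∏ i ∈ S, ((x i : ℤ) : ℝ))
        nlinarith
  rw [Finset.sum_ite_eq' Finset.univ (∅ : Finset (Fin n))] at hkey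
  simp only [Finset.mem_univ, if_true] at hkey
  rw [Finset.sum_sub_distrib, ← Finset.mul_sum, hP1, hP2] at hkey
  -- expand the variance
  have hvar : ∑ y, (condMean n f ε y - mean n f) ^ 2
      = ∑ y, condMean n f ε y ^ 2 - 2 ^ n * mean n f ^ 2 := by
    have e : ∀ y : Fin n → ℤˣ, (condMean n f ε y - mean n f) ^ 2
        = condMean n f ε y ^ 2 - 2 * mean n f * condMean n f ε y + mean n f ^ 2 * 1 := by
      intro y; ring
    simp_rw [e]
    rw [Finset.sum_add_distrib, Finset.sum_sub_distrib, ← Finset.mul_sum, ← Finset.mul_sum,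
      sum_condMean, card_cube]
    ring
  rw [hvar, div_le_iff₀ hN]
  have h4 : (2 : ℝ) ^ n * (∑ y, condMean n f ε y ^ 2 - 2 ^ n * mean n f ^ 2)
      ≤ 2 ^ n * ((1 - 2 * ε) ^ (2 * k + 2) * (1 - mean n f ^ 2) * 2 ^ n) := by
    linarith
  exact le_of_mul_le_mul_left h4 hN

/-- an elementary bound for `log (1 + exp (-s))` -/
lemma log_one_add_exp_neg (s : ℝ) :
    Real.log (1 + Real.exp (-s)) ≤ Real.log 2 - s / 2 + s ^ 2 / 8 := by
  have h1 : 1 + Real.exp (-s) = 2 * (Real.exp (-(s / 2)) * Real.cosh (s / 2)) := by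
    rw [Real.cosh_eq]
    have e1 : Real.exp (-s) = Real.exp (-(s / 2)) * Real.exp (-(s / 2)) := by
      rw [← Real.exp_add]; congr 1; ring
    have e2 : Real.exp (-(s / 2)) * Real.exp (s / 2) = 1 := by
      rw [← Real.exp_add]; simp
    rw [e1]
    linear_combination (-1 : ℝ) * e2
  have h2 := Real.cosh_le_exp_half_sq (s / 2)
  have h3 : 1 + Real.exp (-s) ≤ 2 * Real.exp (-(s / 2) + (s / 2) ^ 2 / 2) := by
    rw [h1, Real.exp_add]
    have := Real.exp_pos (-(s / 2))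
    nlinarith
  have h4 := Real.log_le_log (by positivity) h3
  rw [Real.log_mul (by norm_num) (Real.exp_pos _).ne', Real.log_exp] at h4
  linarith

/-- the comparison of the logarithmic bound with `1 - h2` at low noise -/
lemma low_noise (k : ℕ) (ε : ℝ) (hε : Real.exp (-(k : ℝ)) ≤ ε) (h6 : ε ≤ 1 / 6) :
    Real.log (1 + (1 - 2 * ε) ^ (2 * k + 2))
      ≤ Real.log 2 + ε * Real.log ε + (1 - ε) * Real.log (1 - ε) := by
  have hε0 : 0 < ε := lt_of_lt_of_le (Real.exp_pos _) hε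
  -- the entropy is at most `(k + 1) ε` and at most `1 / 2`
  have hb : -((1 - ε) * Real.log (1 - ε)) ≤ ε := by
    have h := Real.one_sub_inv_le_log_of_pos (show (0 : ℝ) < 1 - ε by linarith)
    have h' : (1 - ε) * (1 - (1 - ε)⁻¹) ≤ (1 - ε) * Real.log (1 - ε) :=
      mul_le_mul_of_nonneg_left h (by linarith)
    have e : (1 - ε) * (1 - (1 - ε)⁻¹) = -ε := by
      have : (1 - ε) ≠ 0 := by linarith
      field_simp
      ring
    linarith
  have ha1 : -(ε * Real.log ε) ≤ ε * k := by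
    have h : -(k : ℝ) ≤ Real.log ε := by
      rw [Real.le_log_iff_exp_le hε0]; exact hε
    nlinarith
  have ha2 : -(ε * Real.log ε) ≤ 1 / 6 - ε + ε * 2 := by
    have h := Real.log_le_sub_one_of_pos (show (0 : ℝ) < 1 / 6 / ε by positivity)
    rw [Real.log_div (by norm_num) hε0.ne'] at h
    have h6' : Real.log (1 / 6) = -Real.log 6 := by
      rw [one_div, Real.log_inv]
    have hl6 : Real.log 6 ≤ 2 := by
      rw [Real.log_le_iff_le_exp (by norm_num)]
      have he := Real.exp_one_gt_d9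
      have e2 : Real.exp 2 = Real.exp 1 * Real.exp 1 := by
        rw [← Real.exp_add]; norm_num
      rw [e2]
      nlinarith
    rw [h6'] at h
    have h' : ε * (-Real.log 6 - Real.log ε) ≤ ε * (1 / 6 / ε - 1) :=
      mul_le_mul_of_nonneg_left h hε0.le
    have e : ε * (1 / 6 / ε - 1) = 1 / 6 - ε := by
      field_simp
    nlinarith
  -- the power is at most an exponential
  have hr0 : 0 ≤ 1 - 2 * ε := by linarith
  have hpow : (1 - 2 * ε) ^ (2 * k + 2) ≤ Real.exp (-(4 * ((k : ℝ) + 1) * ε)) := by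
    have h := Real.one_sub_le_exp_neg (2 * ε)
    have h' := pow_le_pow_left₀ hr0 h (2 * k + 2)
    rw [← Real.exp_nat_mul] at h'
    have e : ((2 * k + 2 : ℕ) : ℝ) * -(2 * ε) = -(4 * ((k : ℝ) + 1) * ε) := by
      push_cast; ring
    rw [e] at h'
    exact h'
  have hs0 : 0 ≤ 4 * ((k : ℝ) + 1) * ε := by positivity
  rcases le_total (4 * ((k : ℝ) + 1) * ε) 2 with hs | hs
  · -- `s ≤ 2`
    have h1 := log_one_add_exp_neg (4 * ((k : ℝ) + 1) * ε)
    have h2 : Real.log (1 + (1 - 2 * ε) ^ (2 * k + 2))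
        ≤ Real.log (1 + Real.exp (-(4 * ((k : ℝ) + 1) * ε))) :=
      Real.log_le_log (by positivity) (by linarith)
    nlinarith
  · -- `2 ≤ s`
    have h1 := log_one_add_exp_neg 2
    have hexp : Real.exp (-(4 * ((k : ℝ) + 1) * ε)) ≤ Real.exp (-2) :=
      Real.exp_le_exp.mpr (by linarith)
    have h2 : Real.log (1 + (1 - 2 * ε) ^ (2 * k + 2)) ≤ Real.log (1 + Real.exp (-2)) :=
      Real.log_le_log (by positivity) (by linarith)
    norm_num at h1
    linarith

/-- even functions have no Fourier weight on the first level -/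
lemma even_level_one (n : ℕ) (f : (Fin n → ℤˣ) → ℤˣ) (hf : ∀ x, f (fun i => -x i) = f x)
    (i : Fin n) : ∑ x, ((f x : ℤ) : ℝ) * ((x i : ℤ) : ℝ) = 0 := by
  have h : ∑ x : Fin n → ℤˣ, ((f x : ℤ) : ℝ) * ((x i : ℤ) : ℝ)
      = ∑ x : Fin n → ℤˣ, ((f (fun j => -x j) : ℤ) : ℝ) * (((-x i : ℤˣ) : ℤ) : ℝ) :=
    (Fintype.sum_equiv (Equiv.neg (Fin n → ℤˣ)) _ _ (fun x => rfl)).symm
  simp_rw [hf] at h
  simp only [Units.val_neg, Int.cast_neg, mul_neg, Finset.sum_neg_distrib] at h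
  linarith

theorem main (n k : ℕ) (f : (Fin n → ℤˣ) → ℤˣ) (ε : ℝ) (h0 : 0 ≤ ε) (h1 : ε ≤ 1 / 2)
    (hf : ∀ S : Finset (Fin n), S.Nonempty → S.card ≤ k →
      ∑ x, ((f x : ℤ) : ℝ) * ∏ i ∈ S, ((x i : ℤ) : ℝ) = 0) :
    mutualInfo n f ε ≤ Real.logb 2 (1 + (1 - 2 * ε) ^ (2 * k + 2)) ∧
    (((1 - 2 * ε) ^ (2 * k) ≤ 1 / 2 ∨ (1 ≤ k ∧ Real.exp (-(k : ℝ)) ≤ ε)) →
      mutualInfo n f ε ≤ 1 - h2 ε) := by
  have hl2 : 0 < Real.log 2 := Real.log_pos (by norm_num)
  have hr0 : 0 ≤ 1 - 2 * ε := by linarith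
  have hr1 : 1 - 2 * ε ≤ 1 := by linarith
  have hI := crit_log n f ε h0 h1 ((1 - 2 * ε) ^ (2 * k + 2)) (by positivity)
    (var_bound n k f ε h0 h1 hf)
  refine ⟨hI, ?_⟩
  -- the case of moderate noise
  have caseA : (1 - 2 * ε) ^ (2 * k) ≤ 1 / 2 → mutualInfo n f ε ≤ 1 - h2 ε := by
    intro hk
    have hent := h2_bound ε h0 h1
    have hpk : (1 - 2 * ε) ^ (2 * k + 2) ≤ (1 - 2 * ε) ^ 2 / 2 := by
      rw [pow_add]
      have := sq_nonneg (1 - 2 * ε)
      nlinarith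
    have hlog : Real.log (1 + (1 - 2 * ε) ^ (2 * k + 2)) ≤ (1 - 2 * ε) ^ (2 * k + 2) := by
      have := Real.log_le_sub_one_of_pos
        (show (0 : ℝ) < 1 + (1 - 2 * ε) ^ (2 * k + 2) by positivity)
      linarith
    have h3 : Real.logb 2 (1 + (1 - 2 * ε) ^ (2 * k + 2)) ≤ (1 - 2 * ε) ^ 2 / 2 / Real.log 2 := by
      unfold Real.logb
      apply div_le_div_of_nonneg_right _ hl2.le
      linarith
    linarith
  rintro (hk | ⟨hk1, hke⟩)
  · exact caseA hk
  · rcases le_total (1 / 6) ε with h6 | h6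
    · apply caseA
      have hb : (1 - 2 * ε) ^ (2 * k) ≤ (1 - 2 * ε) ^ 2 :=
        pow_le_pow_of_le_one hr0 hr1 (by omega)
      have hb2 : (1 - 2 * ε) ^ 2 ≤ (2 / 3) ^ 2 :=
        pow_le_pow_left₀ hr0 (by linarith) 2
      norm_num at hb2
      linarith
    · have hlow := low_noise k ε hke h6
      have hε0 : 0 < ε := lt_of_lt_of_le (Real.exp_pos _) hke
      have h3 : Real.logb 2 (1 + (1 - 2 * ε) ^ (2 * k + 2)) ≤ 1 - h2 ε := by
        unfold h2 Real.logb
        rw [div_le_iff₀ hl2]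
        have e3 : (1 - (-(ε * (Real.log ε / Real.log 2))
            - (1 - ε) * (Real.log (1 - ε) / Real.log 2))) * Real.log 2
            = Real.log 2 + ε * Real.log ε + (1 - ε) * Real.log (1 - ε) := by
          field_simp
          ring
        rw [e3]
        exact hlow
      linarith

theorem result :
    (∀ (n k : ℕ) (f : (Fin n → ℤˣ) → ℤˣ) (ε : ℝ), 0 ≤ ε → ε ≤ 1 / 2 →
      (∀ S : Finset (Fin n), S.Nonempty → S.card ≤ k →
        ∑ x, ((f x : ℤ) : ℝ) * ∏ i ∈ S, ((x i : ℤ) : ℝ) = 0) →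
      mutualInfo n f ε ≤ Real.logb 2 (1 + (1 - 2 * ε) ^ (2 * k + 2)) ∧
      (((1 - 2 * ε) ^ (2 * k) ≤ 1 / 2 ∨ (1 ≤ k ∧ Real.exp (-(k : ℝ)) ≤ ε)) →
        mutualInfo n f ε ≤ 1 - h2 ε)) ∧
    (∀ (n : ℕ) (f : (Fin n → ℤˣ) → ℤˣ) (ε : ℝ), 0 ≤ ε → ε ≤ 1 / 2 →
      (∀ x, f (fun i => -x i) = f x) → (1 - 2 * ε) ^ 2 ≤ 1 / 2 →
      mutualInfo n f ε ≤ 1 - h2 ε) := by
  refine ⟨fun n k f ε h0 h1 hf => main n k f ε h0 h1 hf, ?_⟩
  intro n f ε h0 h1 hev hr
  refine (main n 1 f ε h0 h1 ?_).2 (Or.inl (by simpa using hr))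
  intro S hS hc
  have hc1 : S.card = 1 := le_antisymm hc (Finset.card_pos.mpr hS)
  obtain ⟨i, rfl⟩ := Finset.card_eq_one.mp hc1
  simpa using even_level_one n f hev i

end Vale.Agent.Results.P322.NoLowLevelWeight
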